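import Vale.Agent.P092.H221.Gr1

/-!
P092 (helper458), team D: the growth lemma for ALL powers `a ^ N` (helper221's `GrD.growth` is
for `N = 2 ^ k`): `N = 2 m + r`, double and multiply once more. The size is `C * (N + 1) ^ 3`.
-/

set_option linter.all false

open ContinuousLinearMap
open scoped InnerProductSpace

namespace Vale.Agent.P092.H458.GrN

open Vale.Agent.P092.H221.Gr

variable {K : Type*} [NormedAddCommGroup K] [InnerProductSpace ℂ K] [CompleteSpace K]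
  {H : Type*} [Group H]
  {π : H →* (K →L[ℂ] K)} {M : StarSubalgebra ℂ (K →L[ℂ] K)} {Ω : K}
  {F : ℕ → Submodule ℂ K}

/-- One doubling, with a sharper conclusion. -/
theorem double2 (D : GrD π M Ω F) {b : H} {ι : Type*} [Fintype ι] [Nonempty ι] {l : ι → H}
    (hl : ∀ i, Commute (l i) b) {δ η ε : ℝ} (hδ0 : 0 ≤ δ) (hδ : δ ≤ 1 / 24)
    (hη : η + 2 * ε ≤ δ / 24)
    (gap : ∀ x ∈ M, ‖x‖ ≤ 1 → ‖(((Fintype.card ι : ℂ)⁻¹) • ∑ i, π (l i) * x * π (l i)⁻¹) Ω -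
      ⟪Ω, x Ω⟫_ℂ • Ω‖ ≤ η)
    {J₀ : ℕ} (hK : ∀ i, ∃ Z ∈ CC π M Ω F J₀ (l i), ‖(Z - 1) Ω‖ ≤ ε)
    (hK' : ∀ i, ∃ Z ∈ CC π M Ω F J₀ (l i)⁻¹, ‖(Z - 1) Ω‖ ≤ ε)
    {J : ℕ} {Z : K →L[ℂ] K} (hZ : Z ∈ CC π M Ω F J b) (hZ1 : 1 - δ ≤ (⟪Ω, Z Ω⟫_ℂ).re) :
    ∃ Y ∈ CC π M Ω F (6 * J + 12 * J₀) (b * b), 1 - δ / 2 ≤ (⟪Ω, Y Ω⟫_ℂ).re := by
  classical
  have hcard : (0 : ℝ) < Fintype.card ι := by exact_mod_cast Fintype.card_pos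
  have hcard' : (Fintype.card ι : ℂ) ≠ 0 := by exact_mod_cast Fintype.card_ne_zero
  -- rotate the phase
  set τ := ⟪Ω, Z Ω⟫_ℂ with hτ
  set t : ℝ := ‖τ‖ with ht
  have ht1 : t ≤ 1 := D.norm_trace_le hZ.2.1
  have htδ : 1 - δ ≤ t := hZ1.trans (Complex.re_le_norm _)
  have ht0 : 0 < t := by linarith
  have hc : ‖(starRingEnd ℂ) τ / (t : ℂ)‖ ≤ 1 := by
    rw [norm_div, RCLike.norm_conj, Complex.norm_real, Real.norm_of_nonneg ht0.le, ← ht,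
      div_self ht0.ne']
  set Z₁ := ((starRingEnd ℂ) τ / (t : ℂ)) • Z with hZ₁
  have hZ₁m : Z₁ ∈ CC π M Ω F J b := D.cc_smul hZ hc
  have hτ1 : ⟪Ω, Z₁ Ω⟫_ℂ = (t : ℂ) := by
    rw [hZ₁, smul_apply, inner_smul_right, ← hτ]
    have h1 : (starRingEnd ℂ) τ * τ = ((t : ℂ)) ^ 2 := by
      rw [mul_comm, Complex.mul_conj, Complex.normSq_eq_norm_sq, ← ht]
      push_cast
      rfl
    have h2 : (t : ℂ) ≠ 0 := by exact_mod_cast ht0.ne'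
    rw [div_mul_eq_mul_div, h1]
    field_simp
  -- conjugate
  choose A hA hA1 using hK
  choose B hB hB1 using hK'
  set W : ι → K →L[ℂ] K := fun i => A i * (π (l i) * (Z₁ * (π b * B i * π b⁻¹)) * π (l i)⁻¹)
    with hW
  have hWc : ∀ i, W i ∈ CC π M Ω F (J + 2 * J₀) b := fun i => by
    have h1 := D.cc_mul (hA i) (D.cc_mul hZ₁m (hB i))
    have h2 : l i * (b * (l i)⁻¹) = b := by
      rw [← mul_assoc, (hl i).eq, mul_inv_cancel_right]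
    rw [h2] at h1
    exact D.cc_mono (by omega) h1
  have hWn : ∀ i, ‖(W i - π (l i) * Z₁ * π (l i)⁻¹) Ω‖ ≤ 2 * ε := fun i => by
    have hb1 : π b * (1 : K →L[ℂ] K) * π b⁻¹ = 1 := by rw [mul_one, D.pi_mul_inv]
    have e1 : W i - π (l i) * Z₁ * π (l i)⁻¹ =
        (A i - 1) * (π (l i) * (Z₁ * (π b * B i * π b⁻¹)) * π (l i)⁻¹) +
          π (l i) * (Z₁ * (π b * (B i - 1) * π b⁻¹)) * π (l i)⁻¹ := by
      rw [hW]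
      simp only [mul_sub, sub_mul]
      rw [hb1]
      simp only [mul_one, one_mul]
      abel
    have hB1M : B i - 1 ∈ M := sub_mem (hB i).1 (one_mem _)
    rw [e1, add_apply]
    refine (norm_add_le _ _).trans ?_
    have m1 : π b * B i * π b⁻¹ ∈ M := D.Ad _ _ (hB i).1
    have m2 : π (l i) * (Z₁ * (π b * B i * π b⁻¹)) * π (l i)⁻¹ ∈ M :=
      D.Ad _ _ (mul_mem hZ₁m.1 m1)
    have c1 : ‖π (l i) * (Z₁ * (π b * B i * π b⁻¹)) * π (l i)⁻¹‖ ≤ 1 := by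
      refine (D.norm_Ad_le _ _).trans ((norm_mul_le _ _).trans ?_)
      exact mul_le_one₀ hZ₁m.2.1 (norm_nonneg _) ((D.norm_Ad_le _ _).trans (hB i).2.1)
    have n1 : ‖((A i - 1) * (π (l i) * (Z₁ * (π b * B i * π b⁻¹)) * π (l i)⁻¹)) Ω‖ ≤ ε := by
      refine (D.norm_mul_le_right (sub_mem (hA i).1 (one_mem _)) m2).trans ?_
      exact (mul_le_of_le_one_right (norm_nonneg _) c1).trans (hA1 i)
    have n2 : ‖(π (l i) * (Z₁ * (π b * (B i - 1) * π b⁻¹)) * π (l i)⁻¹) Ω‖ ≤ ε := by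
      rw [D.norm_Ad (mul_mem hZ₁m.1 (D.Ad _ _ hB1M))]
      refine (D.norm_mul_le_left _ _).trans ?_
      rw [D.norm_Ad hB1M]
      exact (mul_le_of_le_one_left (norm_nonneg _) hZ₁m.2.1).trans (hB1 i)
    linarith
  -- the mean
  set X := ((Fintype.card ι : ℂ)⁻¹) • ∑ i, W i with hX
  have hXc : X ∈ CC π M Ω F (J + 2 * J₀) b := D.cc_mean hWc
  have hXn : ‖(X - (t : ℂ) • (1 : K →L[ℂ] K)) Ω‖ ≤ η + 2 * ε := by
    have e1 : (X - (t : ℂ) • (1 : K →L[ℂ] K)) Ω =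
        (((Fintype.card ι : ℂ)⁻¹) • ∑ i, (W i - π (l i) * Z₁ * π (l i)⁻¹)) Ω +
        ((((Fintype.card ι : ℂ)⁻¹) • ∑ i, π (l i) * Z₁ * π (l i)⁻¹) Ω - ⟪Ω, Z₁ Ω⟫_ℂ • Ω) := by
      rw [hτ1, Finset.sum_sub_distrib, smul_sub, ← hX]
      simp only [sub_apply, smul_apply, one_apply_eq_self]
      abel
    rw [e1]
    refine (norm_add_le _ _).trans ?_
    have n1 := gap Z₁ hZ₁m.1 hZ₁m.2.1
    have n2 : ‖(((Fintype.card ι : ℂ)⁻¹) • ∑ i, (W i - π (l i) * Z₁ * π (l i)⁻¹)) Ω‖ ≤ 2 * ε := by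
      rw [smul_apply, sum_apply, norm_smul, norm_inv, Complex.norm_natCast,
        inv_mul_le_iff₀ hcard]
      refine (norm_sum_le _ _).trans ((Finset.sum_le_sum fun i _ => hWn i).trans ?_)
      simp
    linarith
  -- the product
  have hXb : ‖(π b * X * π b⁻¹ - (t : ℂ) • (1 : K →L[ℂ] K)) Ω‖ ≤ η + 2 * ε := by
    have e1 : π b * X * π b⁻¹ - (t : ℂ) • (1 : K →L[ℂ] K) =
        π b * (X - (t : ℂ) • (1 : K →L[ℂ] K)) * π b⁻¹ := by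
      have e2 : π b * ((t : ℂ) • (1 : K →L[ℂ] K)) * π b⁻¹ = (t : ℂ) • (1 : K →L[ℂ] K) := by
        rw [mul_smul_comm, smul_mul_assoc, mul_one, D.pi_mul_inv]
      rw [mul_sub, sub_mul, e2]
    rw [e1, D.norm_Ad (sub_mem hXc.1 (M.smul_mem (one_mem _) _))]
    exact hXn
  have hPc := D.cc_mul hXc hXc
  have hPn := D.norm_sub_scalar_mul hXc.1 (D.Ad b X hXc.1) ((D.norm_Ad_le b X).trans hXc.2.1)
    ht0.le ht1 hXn hXb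
  -- Newton
  have hs0 : 0 ≤ t ^ 2 := sq_nonneg _
  have hs1 : t ^ 2 ≤ 1 := by nlinarith
  have hYn := D.norm_nw_sub hPc.1 hPc.2.1 hs0 hs1
  have hYc := D.cc_nw hPc
  refine ⟨_, D.cc_mono (by omega) hYc, ?_⟩
  set Y := nw (X * (π b * X * π b⁻¹)) with hY
  set f : ℝ := 3 / 2 * t ^ 2 - 1 / 2 * (t ^ 2) ^ 3 with hf
  have r1 : |(⟪Ω, (Y - (f : ℂ) • (1 : K →L[ℂ] K)) Ω⟫_ℂ).re| ≤ 6 * (η + 2 * ε) := by
    refine (Complex.abs_re_le_norm _).trans ((norm_inner_le_norm _ _).trans ?_)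
    rw [D.one, one_mul]
    linarith
  have r2 : (⟪Ω, (Y - (f : ℂ) • (1 : K →L[ℂ] K)) Ω⟫_ℂ).re = (⟪Ω, Y Ω⟫_ℂ).re - f := by
    rw [sub_apply, smul_apply, one_apply_eq_self, inner_sub_right, inner_smul_right,
      inner_self_eq_norm_sq_to_K, D.one]
    simp
  rw [r2] at r1
  have r3 := (abs_le.mp r1).1
  have s1 : 1 - 2 * δ ≤ t ^ 2 := by nlinarith
  have r4 : 1 - 6 * δ ^ 2 ≤ f := by
    have h1 : 1 - f = (1 - t ^ 2) ^ 2 * (1 + t ^ 2 / 2) := by rw [hf]; ring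
    have h2 : (1 - t ^ 2) ^ 2 ≤ (2 * δ) ^ 2 := by
      apply pow_le_pow_left₀ (by linarith)
      linarith
    have h3 : (1 - t ^ 2) ^ 2 * (1 + t ^ 2 / 2) ≤ (2 * δ) ^ 2 * (3 / 2) := by
      apply mul_le_mul h2 (by linarith) (by positivity) (by positivity)
    nlinarith
  nlinarith


theorem step (D : GrD π M Ω F) {a b : H} {ι : Type*} [Fintype ι] [Nonempty ι] {l : ι → H}
    (hl : ∀ i, Commute (l i) b) {δ η ε : ℝ} (hδ0 : 0 ≤ δ) (hδ : δ ≤ 1 / 24)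
    (hη : η + 2 * ε ≤ δ / 24)
    (gap : ∀ x ∈ M, ‖x‖ ≤ 1 → ‖(((Fintype.card ι : ℂ)⁻¹) • ∑ i, π (l i) * x * π (l i)⁻¹) Ω -
      ⟪Ω, x Ω⟫_ℂ • Ω‖ ≤ η)
    {J₀ : ℕ} (hK : ∀ i, ∃ Z ∈ CC π M Ω F J₀ (l i), ‖(Z - 1) Ω‖ ≤ ε)
    (hK' : ∀ i, ∃ Z ∈ CC π M Ω F J₀ (l i)⁻¹, ‖(Z - 1) Ω‖ ≤ ε)
    {J₁ : ℕ} (hA : ∃ Z ∈ CC π M Ω F J₁ a, ‖(Z - 1) Ω‖ ≤ δ / 2)
    {J : ℕ} {Z : K →L[ℂ] K} (hZ : Z ∈ CC π M Ω F J b) (hZ1 : 1 - δ ≤ (⟪Ω, Z Ω⟫_ℂ).re) :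
    ∃ Y ∈ CC π M Ω F (6 * J + 12 * J₀ + J₁) (b * b * a), 1 - δ ≤ (⟪Ω, Y Ω⟫_ℂ).re := by
  obtain ⟨Y, hY, hY1⟩ := double2 D hl hδ0 hδ hη gap hK hK' hZ hZ1
  obtain ⟨A, hA, hA1⟩ := hA
  refine ⟨_, D.cc_mul hY hA, ?_⟩
  have e1 : ⟪Ω, (Y * (π (b * b) * A * π (b * b)⁻¹)) Ω⟫_ℂ = ⟪Ω, Y Ω⟫_ℂ +
      ⟪Ω, (Y * (π (b * b) * (A - 1) * π (b * b)⁻¹)) Ω⟫_ℂ := by
    have e2 : π (b * b) * (A - 1) * π (b * b)⁻¹ = π (b * b) * A * π (b * b)⁻¹ - 1 := by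
      rw [mul_sub, sub_mul, mul_one, D.pi_mul_inv]
    rw [e2, mul_sub, mul_one, sub_apply, inner_sub_right]
    ring
  have e3 : ‖⟪Ω, (Y * (π (b * b) * (A - 1) * π (b * b)⁻¹)) Ω⟫_ℂ‖ ≤ δ / 2 := by
    refine (norm_inner_le_norm _ _).trans ?_
    rw [D.one, one_mul]
    refine (D.norm_mul_le_left _ _).trans ?_
    rw [D.norm_Ad (sub_mem hA.1 (one_mem _))]
    exact (mul_le_of_le_one_left (norm_nonneg _) hY.2.1).trans hA1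
  rw [e1, Complex.add_re]
  have := (abs_le.mp ((Complex.abs_re_le_norm _).trans e3)).1
  linarith

/-- **The growth lemma for all powers.** -/
theorem growth_all (D : GrD π M Ω F) {a : H}
    (gap : ∀ η : ℝ, 0 < η → ∃ p : ℕ, 0 < p ∧ ∃ l : Fin p → H, (∀ i, Commute (l i) a) ∧
      ∀ x ∈ M, ‖x‖ ≤ 1 → ‖(((p : ℂ)⁻¹) • ∑ i, π (l i) * x * π (l i)⁻¹) Ω -
        ⟪Ω, x Ω⟫_ℂ • Ω‖ ≤ η)
    (kap : ∀ h : H, ∀ ε : ℝ, 0 < ε → ∃ J, ∃ Z ∈ CC π M Ω F J h, ‖(Z - 1) Ω‖ ≤ ε)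
    {ε : ℝ} (hε : 0 < ε) :
    ∃ C : ℕ, ∀ N : ℕ, ∃ Z ∈ CC π M Ω F (C * (N + 1) ^ 3) (a ^ N), ‖(Z - 1) Ω‖ ≤ ε := by
  classical
  obtain ⟨δ, hδ0, hδ, hδε⟩ : ∃ δ : ℝ, 0 < δ ∧ δ ≤ 1 / 24 ∧ 2 * δ ≤ ε ^ 2 := by
    refine ⟨min (1 / 24) (ε ^ 2 / 2), by positivity, min_le_left _ _, ?_⟩
    have := min_le_right (1 / 24 : ℝ) (ε ^ 2 / 2)
    linarith
  obtain ⟨p, hp, l, hl, hgap⟩ := gap (δ / 48) (by positivity)
  haveI : Nonempty (Fin p) := ⟨⟨0, hp⟩⟩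
  have hk : ∀ h, ∃ J, ∃ Z ∈ CC π M Ω F J h, ‖(Z - 1) Ω‖ ≤ δ / 96 := fun h =>
    kap h _ (by positivity)
  choose Jf Zf hZf hZf1 using hk
  set J₀ : ℕ := ∑ i, (Jf (l i) + Jf (l i)⁻¹) with hJ₀
  have hJ : ∀ i, Jf (l i) + Jf (l i)⁻¹ ≤ J₀ := fun i =>
    Finset.single_le_sum (f := fun i => Jf (l i) + Jf (l i)⁻¹) (fun _ _ => Nat.zero_le _)
      (Finset.mem_univ i)
  have hZa : ∀ h, 1 - δ ≤ (⟪Ω, Zf h Ω⟫_ℂ).re := fun h => by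
    have h1 : ⟪Ω, Zf h Ω⟫_ℂ = 1 + ⟪Ω, (Zf h - 1) Ω⟫_ℂ := by
      rw [sub_apply, one_apply_eq_self, inner_sub_right, inner_self_eq_norm_sq_to_K, D.one]
      simp
    have h2 : |(⟪Ω, (Zf h - 1) Ω⟫_ℂ).re| ≤ δ / 96 := by
      refine (Complex.abs_re_le_norm _).trans ((norm_inner_le_norm _ _).trans ?_)
      rw [D.one, one_mul]
      exact hZf1 h
    rw [h1, Complex.add_re, Complex.one_re]
    have := (abs_le.mp h2).1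
    linarith
  -- one step of the recursion
  set J₁ : ℕ := Jf a + Jf 1 with hJ₁
  have rec1 : ∀ (m : ℕ) (r : ℕ), r ≤ 1 → ∀ J : ℕ, (∃ Y ∈ CC π M Ω F J (a ^ m),
      1 - δ ≤ (⟪Ω, Y Ω⟫_ℂ).re) → ∃ Y ∈ CC π M Ω F (6 * J + 12 * J₀ + J₁) (a ^ (2 * m + r)),
      1 - δ ≤ (⟪Ω, Y Ω⟫_ℂ).re := by
    intro m r hr J ⟨Y, hY, hY1⟩
    have hl' : ∀ i, Commute (l i) (a ^ m) := fun i => (hl i).pow_right _
    have hA : ∃ Z ∈ CC π M Ω F J₁ (a ^ r), ‖(Z - 1) Ω‖ ≤ δ / 2 := by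
      rcases Nat.le_one_iff_eq_zero_or_eq_one.mp hr with h | h
      · rw [h, pow_zero]
        exact ⟨Zf 1, D.cc_mono (by omega) (hZf 1), (hZf1 1).trans (by linarith)⟩
      · rw [h, pow_one]
        exact ⟨Zf a, D.cc_mono (by omega) (hZf a), (hZf1 a).trans (by linarith)⟩
    obtain ⟨Y', hY', hY'1⟩ := step D (ι := Fin p) (l := l) hl' hδ0.le hδ
      (η := δ / 48) (ε := δ / 96) (by linarith) (by simpa using hgap) (J₀ := J₀)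
      (fun i => ⟨Zf (l i), D.cc_mono ((Nat.le_add_right _ _).trans (hJ i)) (hZf _), hZf1 _⟩)
      (fun i => ⟨Zf (l i)⁻¹, D.cc_mono ((Nat.le_add_left _ _).trans (hJ i)) (hZf _), hZf1 _⟩)
      hA hY hY1
    refine ⟨Y', ?_, hY'1⟩
    rwa [← pow_add, ← pow_add, ← two_mul] at hY'
  set c : ℕ := 12 * J₀ + J₁ with hc
  have key : ∀ s : ℕ, ∀ N : ℕ, N < 2 ^ s → ∃ J, J + c ≤ (Jf 1 + c) * 6 ^ s ∧
      ∃ Y ∈ CC π M Ω F J (a ^ N), 1 - δ ≤ (⟪Ω, Y Ω⟫_ℂ).re := by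
    intro s
    induction s with
    | zero =>
      intro N hN
      have : N = 0 := by simpa using hN
      subst this
      exact ⟨Jf 1, by simp, Zf 1, by simpa using hZf 1, hZa 1⟩
    | succ s ih =>
      intro N hN
      obtain ⟨J, hJs, Y, hY, hY1⟩ := ih (N / 2) (by rw [pow_succ] at hN; omega)
      obtain ⟨Y', hY', hY'1⟩ := rec1 (N / 2) (N % 2) (by omega) J ⟨Y, hY, hY1⟩
      refine ⟨6 * J + 12 * J₀ + J₁, ?_, Y', ?_, hY'1⟩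
      · have : (Jf 1 + c) * 6 ^ (s + 1) = 6 * ((Jf 1 + c) * 6 ^ s) := by ring
        omega
      · rwa [Nat.div_add_mod] at hY'
  refine ⟨(Jf 1 + c) * 8, fun N => ?_⟩
  obtain ⟨J, hJs, Y, hY, hY1⟩ := key (Nat.log 2 N + 1) N (Nat.lt_pow_succ_log_self (by norm_num) N)
  refine ⟨Y, D.cc_mono ?_ hY, ?_⟩
  · have h6 : 6 ^ (Nat.log 2 N + 1) ≤ 8 * (N + 1) ^ 3 := by
      rcases Nat.eq_zero_or_pos N with h0 | h0
      · subst h0; simp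
      · have h1 : 2 ^ (Nat.log 2 N) ≤ N := Nat.pow_log_le_self 2 (by omega)
        have h2 : 2 ^ (Nat.log 2 N + 1) ≤ 2 * N := by
          rw [pow_succ]
          omega
        calc 6 ^ (Nat.log 2 N + 1) ≤ 8 ^ (Nat.log 2 N + 1) := Nat.pow_le_pow_left (by norm_num) _
          _ = (2 ^ (Nat.log 2 N + 1)) ^ 3 := by
              rw [← pow_mul, mul_comm, pow_mul]; norm_num
          _ ≤ (2 * N) ^ 3 := Nat.pow_le_pow_left h2 _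
          _ = 8 * N ^ 3 := by ring
          _ ≤ 8 * (N + 1) ^ 3 := by gcongr; omega
    calc J ≤ J + c := Nat.le_add_right _ _
      _ ≤ (Jf 1 + c) * 6 ^ (Nat.log 2 N + 1) := hJs
      _ ≤ (Jf 1 + c) * (8 * (N + 1) ^ 3) := Nat.mul_le_mul_left _ h6
      _ = _ := by ring
  · have h3 := D.norm_sub_one hY.2.1
    have h4 : ‖(Y - 1) Ω‖ ^ 2 ≤ ε ^ 2 := by linarith
    exact le_of_pow_le_pow_left₀ two_ne_zero hε.le h4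

/-- The same for vectors: `π (a ^ N) Ω` is close to a vector of size `C * (N + 1) ^ 3`. -/
theorem growth_vec_all (D : GrD π M Ω F) {a : H}
    (gap : ∀ η : ℝ, 0 < η → ∃ p : ℕ, 0 < p ∧ ∃ l : Fin p → H, (∀ i, Commute (l i) a) ∧
      ∀ x ∈ M, ‖x‖ ≤ 1 → ‖(((p : ℂ)⁻¹) • ∑ i, π (l i) * x * π (l i)⁻¹) Ω -
        ⟪Ω, x Ω⟫_ℂ • Ω‖ ≤ η)
    (kap : ∀ h : H, ∀ ε : ℝ, 0 < ε → ∃ J, ∃ Z ∈ CC π M Ω F J h, ‖(Z - 1) Ω‖ ≤ ε)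
    {ε : ℝ} (hε : 0 < ε) :
    ∃ C : ℕ, ∀ N : ℕ, ∃ v ∈ F (C * (N + 1) ^ 3), ‖π (a ^ N) Ω - v‖ ≤ ε := by
  obtain ⟨C, hC⟩ := growth_all D gap kap hε
  refine ⟨C, fun N => ?_⟩
  obtain ⟨Z, hZ, hZ1⟩ := hC N
  refine ⟨Z (π (a ^ N) Ω), hZ.2.2, ?_⟩
  obtain ⟨u, hu, hu1, hu2, hu3⟩ := D.un (a ^ N)
  have hun : ‖u‖ ≤ 1 := by
    have h1 : ‖u‖ * ‖u‖ ≤ 1 := by
      rw [← CStarRing.norm_star_mul_self, hu1]
      exact ContinuousLinearMap.norm_id_le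
    nlinarith [norm_nonneg u]
  have e1 : π (a ^ N) Ω - Z (π (a ^ N) Ω) = -(((Z - 1) * u) Ω) := by
    rw [ContinuousLinearMap.mul_apply, hu3, sub_apply, one_apply_eq_self]
    abel
  rw [e1, norm_neg]
  refine (D.norm_mul_le_right (sub_mem hZ.1 (one_mem _)) hu).trans ?_
  exact (mul_le_of_le_one_right (norm_nonneg _) hun).trans hZ1

end Vale.Agent.P092.H458.GrN
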