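import Vale.Agent.P092.SD.Defs
import Vale.Agent.P092.H458.GrN

/-!
P092 (helper458), team D: `SD.SIZE` from the growth lemma for all powers.
-/

set_option linter.all false

open ContinuousLinearMap Filter Topology
open scoped InnerProductSpace

namespace Vale.Agent.P092.H458.Size

open Vale.Agent.P092.RC (Cm)
open Vale.Agent.P092.SD
open Vale.Agent.P092.H221.Gr
open Vale.Agent.P092.H458.GrN

section ms

variable {Γ K : Type} [Group Γ] [NormedAddCommGroup K] [InnerProductSpace ℂ K] [CompleteSpace K]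
  {lam : Γ →* (K →L[ℂ] K)} {W : Set (K →L[ℂ] K)} {Ω : K} {m : Set Γ → (K →L[ℂ] K)}

theorem ms_idem (hM : Ms lam W Ω m) (S : Set Γ) : m S * m S = m S := by
  rw [← hM.inf, Set.inter_self]

theorem ms_norm_le (hM : Ms lam W Ω m) (S : Set Γ) (ξ : K) : ‖m S ξ‖ ≤ ‖ξ‖ := by
  have h1 : ‖m S ξ‖ ^ 2 ≤ ‖m S ξ‖ * ‖ξ‖ := by
    have h2 : ⟪m S ξ, m S ξ⟫_ℂ = ⟪m S ξ, ξ⟫_ℂ := by
      rw [← adjoint_inner_left, hM.adj, ← ContinuousLinearMap.mul_apply, ms_idem hM]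
    calc ‖m S ξ‖ ^ 2 = ‖⟪m S ξ, m S ξ⟫_ℂ‖ := by
          rw [inner_self_eq_norm_sq_to_K]; simp
      _ = ‖⟪m S ξ, ξ⟫_ℂ‖ := by rw [h2]
      _ ≤ _ := norm_inner_le_norm _ _
  by_contra hc
  push Not at hc
  have h3 : 0 < ‖m S ξ‖ := lt_of_le_of_lt (norm_nonneg _) hc
  nlinarith [norm_nonneg ξ]

theorem ms_mono (hM : Ms lam W Ω m) {S T : Set Γ} (hST : S ⊆ T) (ξ : K) : ‖m S ξ‖ ≤ ‖m T ξ‖ := by
  have h1 : m S = m S * m T := by rw [← hM.inf, Set.inter_eq_left.mpr hST]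
  rw [h1, ContinuousLinearMap.mul_apply]
  exact ms_norm_le hM _ _

end ms

section size

variable {k : Type} [NontriviallyNormedField k] {Γ K : Type} [Group Γ]
  [NormedAddCommGroup K] [InnerProductSpace ℂ K] [CompleteSpace K]
  {lam : Γ →* (K →L[ℂ] K)} {W : Set (K →L[ℂ] K)} {Ω : K} {m : Set Γ → (K →L[ℂ] K)}
  {w : kˣ} {π : G3 k →* (K →L[ℂ] K)} {q : Γ →* G3 k}

theorem conj_pow' (g : G3 k) (N : ℕ) :
    (g * bw w * g⁻¹)⁻¹ ^ N = (g * bw w ^ N * g⁻¹)⁻¹ := by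
  rw [inv_pow, conj_pow]

/-- polynomial growth of the sizes gives `SIZE` -/
theorem size_of (hM : Ms lam W Ω m) {F : ℕ → Submodule ℂ K}
    (hF : ∀ J : ℕ, ∀ v ∈ F J, m {γ | Real.exp J < nm (q γ)} v = 0)
    (h : ∀ g : G3 k, ∀ ε : ℝ, 0 < ε → ∃ C : ℕ, ∀ N : ℕ, ∃ v ∈ F (C * (N + 1) ^ 3),
      ‖π ((g * bw w * g⁻¹)⁻¹ ^ N) Ω - v‖ ≤ ε) :
    SIZE w π Ω m q := by
  intro g η hη ε hε
  obtain ⟨C, hC⟩ := h g ε hε
  have hlim : ∀ᶠ N : ℕ in atTop, ((C * (N + 1) ^ 3 : ℕ) : ℝ) ≤ Real.exp (η * N) := by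
    have h1 : (fun x : ℝ => x ^ 3) =o[atTop] fun x : ℝ => Real.exp (η * x) :=
      isLittleO_pow_exp_pos_mul_atTop 3 hη
    have h2 : (fun N : ℕ => (N : ℝ) ^ 3) =o[atTop] fun N : ℕ => Real.exp (η * (N : ℝ)) :=
      h1.comp_tendsto tendsto_natCast_atTop_atTop
    have hc : (0 : ℝ) < 1 / (8 * C + 1) := by positivity
    filter_upwards [h2.def hc, eventually_ge_atTop 1] with N hN h1N
    have h3 : ((N : ℝ) + 1) ^ 3 ≤ 8 * (N : ℝ) ^ 3 := by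
      have : (1 : ℝ) ≤ N := by exact_mod_cast h1N
      calc ((N : ℝ) + 1) ^ 3 ≤ (2 * N) ^ 3 := by gcongr; linarith
        _ = 8 * (N : ℝ) ^ 3 := by ring
    rw [Real.norm_of_nonneg (by positivity), Real.norm_of_nonneg (by positivity)] at hN
    push_cast
    have h4 : (8 * C + 1) * (N : ℝ) ^ 3 ≤ Real.exp (η * N) := by
      have h5 : (0 : ℝ) < 8 * C + 1 := by positivity
      have := mul_le_mul_of_nonneg_left hN h5.le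
      rwa [← mul_assoc, mul_one_div_cancel h5.ne', one_mul] at this
    calc (C : ℝ) * ((N : ℝ) + 1) ^ 3 ≤ C * (8 * (N : ℝ) ^ 3) := by gcongr
      _ ≤ (8 * C + 1) * (N : ℝ) ^ 3 := by nlinarith [pow_nonneg (Nat.cast_nonneg (α := ℝ) N) 3]
      _ ≤ _ := h4
  filter_upwards [hlim] with N hN
  obtain ⟨v, hv, hv1⟩ := hC N
  have h1 : m {γ | Real.exp (Real.exp (η * N)) < nm (q γ)} v = 0 := by
    have h2 := ms_mono hM (S := {γ | Real.exp (Real.exp (η * N)) < nm (q γ)})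
      (T := {γ | Real.exp ((C * (N + 1) ^ 3 : ℕ) : ℝ) < nm (q γ)})
      (fun γ hγ => lt_of_le_of_lt (Real.exp_le_exp.mpr hN) hγ) v
    rw [hF _ v hv, norm_zero] at h2
    exact norm_le_zero_iff.mp h2
  rw [← conj_pow']
  have h3 : m {γ | Real.exp (Real.exp (η * N)) < nm (q γ)} (π ((g * bw w * g⁻¹)⁻¹ ^ N) Ω) =
      m {γ | Real.exp (Real.exp (η * N)) < nm (q γ)} (π ((g * bw w * g⁻¹)⁻¹ ^ N) Ω - v) := by
    rw [map_sub, h1, sub_zero]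
  rw [h3]
  exact (ms_norm_le hM _ _).trans hv1

/-- `SIZE` from the growth lemma -/
theorem size_gr (hM : Ms lam W Ω m) {F : ℕ → Submodule ℂ K} {M : StarSubalgebra ℂ (K →L[ℂ] K)}
    (D : GrD π M Ω F)
    (hF : ∀ J : ℕ, ∀ v ∈ F J, m {γ | Real.exp J < nm (q γ)} v = 0)
    (gap : ∀ g : G3 k, ∀ η : ℝ, 0 < η → ∃ p : ℕ, 0 < p ∧ ∃ l : Fin p → G3 k,
      (∀ i, Commute (l i) (g * bw w * g⁻¹)⁻¹) ∧
      ∀ x ∈ M, ‖x‖ ≤ 1 → ‖(((p : ℂ)⁻¹) • ∑ i, π (l i) * x * π (l i)⁻¹) Ω -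
        ⟪Ω, x Ω⟫_ℂ • Ω‖ ≤ η)
    (kap : ∀ h : G3 k, ∀ ε : ℝ, 0 < ε → ∃ J, ∃ Z ∈ CC π M Ω F J h, ‖(Z - 1) Ω‖ ≤ ε) :
    SIZE w π Ω m q :=
  size_of hM hF fun g ε hε => growth_vec_all D (gap g) kap hε

/-- It is enough to have the gap for `g = 1`: conjugate the representation of the data. -/
theorem gap_conj {F : ℕ → Submodule ℂ K} {M : StarSubalgebra ℂ (K →L[ℂ] K)} (D : GrD π M Ω F)
    {b : G3 k}
    (gap : ∀ η : ℝ, 0 < η → ∃ p : ℕ, 0 < p ∧ ∃ l : Fin p → G3 k, (∀ i, Commute (l i) b) ∧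
      ∀ x ∈ M, ‖x‖ ≤ 1 → ‖(((p : ℂ)⁻¹) • ∑ i, π (l i) * x * π (l i)⁻¹) Ω -
        ⟪Ω, x Ω⟫_ℂ • Ω‖ ≤ η) (g : G3 k) :
    ∀ η : ℝ, 0 < η → ∃ p : ℕ, 0 < p ∧ ∃ l : Fin p → G3 k,
      (∀ i, Commute (l i) (g * b * g⁻¹)) ∧
      ∀ x ∈ M, ‖x‖ ≤ 1 → ‖(((p : ℂ)⁻¹) • ∑ i, π (l i) * x * π (l i)⁻¹) Ω -
        ⟪Ω, x Ω⟫_ℂ • Ω‖ ≤ η := by
  intro η hη
  obtain ⟨p, hp, l, hl, hx⟩ := gap η hη
  refine ⟨p, hp, fun i => g * l i * g⁻¹, fun i => ?_, fun x hxM hx1 => ?_⟩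
  · have := (hl i).eq
    change g * l i * g⁻¹ * (g * b * g⁻¹) = g * b * g⁻¹ * (g * l i * g⁻¹)
    calc g * l i * g⁻¹ * (g * b * g⁻¹) = g * (l i * b) * g⁻¹ := by group
      _ = g * (b * l i) * g⁻¹ := by rw [this]
      _ = _ := by group
  · -- conjugate `x` by `g⁻¹`
    set y : K →L[ℂ] K := π g⁻¹ * x * π g⁻¹⁻¹ with hy
    have hyM : y ∈ M := D.Ad _ _ hxM
    have hy1 : ‖y‖ ≤ 1 := (D.norm_Ad_le _ _).trans hx1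
    have h1 := hx y hyM hy1
    have h2 : ⟪Ω, y Ω⟫_ℂ = ⟪Ω, x Ω⟫_ℂ := D.inv _ _ hxM
    set Y : K →L[ℂ] K := (((p : ℂ)⁻¹) • ∑ i, π (l i) * y * π (l i)⁻¹) -
      ⟪Ω, y Ω⟫_ℂ • (1 : K →L[ℂ] K) with hY
    have hYM : Y ∈ M := sub_mem (M.smul_mem (sum_mem fun i _ => D.Ad _ _ hyM) _)
      (M.smul_mem (one_mem _) _)
    have h3 : (((p : ℂ)⁻¹) • ∑ i, π (g * l i * g⁻¹) * x * π (g * l i * g⁻¹)⁻¹) -
        ⟪Ω, x Ω⟫_ℂ • (1 : K →L[ℂ] K) = π g * Y * π g⁻¹ := by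
      rw [hY, h2, mul_sub, sub_mul, mul_smul_comm, smul_mul_assoc, Finset.mul_sum,
        Finset.sum_mul, mul_smul_comm, smul_mul_assoc, mul_one, D.pi_mul_inv]
      congr 2
      refine Finset.sum_congr rfl fun i _ => ?_
      rw [hy]
      simp only [mul_inv_rev, inv_inv, map_mul, mul_assoc]
    have h4 : ‖(π g * Y * π g⁻¹) Ω‖ = ‖Y Ω‖ := D.norm_Ad hYM g
    have h5 : ‖Y Ω‖ ≤ η := by
      have h6 : (⟪Ω, y Ω⟫_ℂ • (1 : K →L[ℂ] K)) Ω = ⟪Ω, y Ω⟫_ℂ • Ω := by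
        rw [smul_apply, one_apply_eq_self]
      rw [hY, sub_apply, h6]
      exact h1
    rw [← h3, sub_apply] at h4
    have h6 : (⟪Ω, x Ω⟫_ℂ • (1 : K →L[ℂ] K)) Ω = ⟪Ω, x Ω⟫_ℂ • Ω := by
      rw [smul_apply, one_apply_eq_self]
    rw [h6] at h4
    rw [h4]
    exact h5

/-- the sizes at the times `2 ^ j` are at most `c * 8 ^ j`: this is what `SD.CNT` needs -/
def SIZE8 (w : kˣ) (π : G3 k →* (K →L[ℂ] K)) (Ω : K) (m : Set Γ → (K →L[ℂ] K))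
    (q : Γ →* G3 k) : Prop :=
  ∀ g : G3 k, ∀ ε : ℝ, 0 < ε → ∃ c : ℝ, ∀ j : ℕ,
    ‖m {γ | c * 8 ^ j < Real.log (nm (q γ))} (π (g * bw w ^ (2 ^ j) * g⁻¹)⁻¹ Ω)‖ ≤ ε

/-- polynomial growth of the sizes gives `SIZE8` -/
theorem size8_of (hM : Ms lam W Ω m) {F : ℕ → Submodule ℂ K}
    (hF : ∀ J : ℕ, ∀ v ∈ F J, m {γ | Real.exp J < nm (q γ)} v = 0)
    (h : ∀ g : G3 k, ∀ ε : ℝ, 0 < ε → ∃ C : ℕ, ∀ N : ℕ, ∃ v ∈ F (C * (N + 1) ^ 3),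
      ‖π ((g * bw w * g⁻¹)⁻¹ ^ N) Ω - v‖ ≤ ε) :
    SIZE8 w π Ω m q := by
  intro g ε hε
  obtain ⟨C, hC⟩ := h g ε hε
  refine ⟨8 * C, fun j => ?_⟩
  obtain ⟨v, hv, hv1⟩ := hC (2 ^ j)
  have hJ : ((C * (2 ^ j + 1) ^ 3 : ℕ) : ℝ) ≤ 8 * C * 8 ^ j := by
    have h1 : (1 : ℝ) ≤ 2 ^ j := one_le_pow₀ (by norm_num)
    have h2 : ((2 : ℝ) ^ j + 1) ^ 3 ≤ 8 * 8 ^ j := by
      calc ((2 : ℝ) ^ j + 1) ^ 3 ≤ (2 * 2 ^ j) ^ 3 := by gcongr; linarith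
        _ = 8 * (2 ^ 3) ^ j := by rw [mul_pow, ← pow_mul, ← pow_mul, mul_comm j 3]; norm_num
        _ = 8 * 8 ^ j := by norm_num
    push_cast
    calc (C : ℝ) * (2 ^ j + 1) ^ 3 ≤ C * (8 * 8 ^ j) := by gcongr
      _ = _ := by ring
  have hs : ∀ γ : Γ, γ ∈ {γ : Γ | 8 * C * 8 ^ j < Real.log (nm (q γ))} →
      γ ∈ {γ : Γ | Real.exp ((C * (2 ^ j + 1) ^ 3 : ℕ) : ℝ) < nm (q γ)} := by
    intro γ hγ
    have h1 : (0 : ℝ) ≤ 8 * C * 8 ^ j := by positivity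
    have h2 : 8 * C * 8 ^ j < Real.log (nm (q γ)) := hγ
    have h3 : 0 ≤ nm (q γ) := norm_nonneg _
    have h4 : 0 < nm (q γ) := by
      rcases h3.eq_or_lt with h | h
      · rw [← h, Real.log_zero] at h2
        linarith
      · exact h
    exact (Real.lt_log_iff_exp_lt h4).mp (lt_of_le_of_lt hJ h2)
  have h1 : m {γ | 8 * C * 8 ^ j < Real.log (nm (q γ))} v = 0 := by
    have h2 := ms_mono hM hs v
    rw [hF _ v hv, norm_zero] at h2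
    exact norm_le_zero_iff.mp h2
  rw [← conj_pow']
  have h3 : m {γ | 8 * C * 8 ^ j < Real.log (nm (q γ))} (π ((g * bw w * g⁻¹)⁻¹ ^ 2 ^ j) Ω) =
      m {γ | 8 * C * 8 ^ j < Real.log (nm (q γ))} (π ((g * bw w * g⁻¹)⁻¹ ^ 2 ^ j) Ω - v) := by
    rw [map_sub, h1, sub_zero]
  rw [h3]
  exact (ms_norm_le hM _ _).trans hv1

/-- `SIZE8` from the growth lemma -/
theorem size8_gr (hM : Ms lam W Ω m) {F : ℕ → Submodule ℂ K} {M : StarSubalgebra ℂ (K →L[ℂ] K)}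
    (D : GrD π M Ω F)
    (hF : ∀ J : ℕ, ∀ v ∈ F J, m {γ | Real.exp J < nm (q γ)} v = 0)
    (gap : ∀ g : G3 k, ∀ η : ℝ, 0 < η → ∃ p : ℕ, 0 < p ∧ ∃ l : Fin p → G3 k,
      (∀ i, Commute (l i) (g * bw w * g⁻¹)⁻¹) ∧
      ∀ x ∈ M, ‖x‖ ≤ 1 → ‖(((p : ℂ)⁻¹) • ∑ i, π (l i) * x * π (l i)⁻¹) Ω -
        ⟪Ω, x Ω⟫_ℂ • Ω‖ ≤ η)
    (kap : ∀ h : G3 k, ∀ ε : ℝ, 0 < ε → ∃ J, ∃ Z ∈ CC π M Ω F J h, ‖(Z - 1) Ω‖ ≤ ε) :
    SIZE8 w π Ω m q :=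
  size8_of hM hF fun g ε hε => growth_vec_all D (gap g) kap hε

end size

end Vale.Agent.P092.H458.Size
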