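import Vale.Agent.P092.SD.Blocks
import Vale.Agent.P092.H613.QPR

/-!
P092 (helper458), team D, glue: `SD.I2Stmt ℝ` and `SD.AllStmt ℝ` from helper613's files.
-/

set_option linter.all false

namespace Vale.Agent.P092.H458

open scoped LinearAlgebra.Projectivization
open Vale.Agent.P092.H820 Vale.Agent.P092.H613

/-- incidence implies commutation -/
theorem i2Stmt : SD.I2Stmt ℝ := by
  intro K _ _ _ β lm h f g
  exact com_of_supp β lm h f g

/-- all lines commute -/
theorem lines_all {K : Type} [NormedAddCommGroup K] [InnerProductSpace ℂ K] [CompleteSpace K]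
    {E F : P2 → (C(P2, ℂ) →⋆ₐ[ℂ] (K →L[ℂ] K))} (h : SD.QP (k := ℝ) E F) (l l' : P2)
    (f g : C(P2, ℂ)) : Commute (F l f) (F l' g) := by
  obtain ⟨c, c', hne, hc, hc'⟩ := exists_two l
  have key : ∀ i j, F l' g * nn (F l) i j = nn (F l) i j * F l' g := by
    intro i j
    exact all (nn_r1 (F l)) (nn_r1 (E c)) (nn_r1 (E c'))
      ((inc3_of_supp _ _ (h.inc c l hc)).symm (nn_r1 (E c)) (nn_r1 (F l)))
      ((inc3_of_supp _ _ (h.inc c' l hc')).symm (nn_r1 (E c')) (nn_r1 (F l)))
      (H406.noAgree _ _ (h.agrE c c' hne)) (F l' g)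
      (fun k m => (lines_comm h c l' _ g).symm) (fun k m => (lines_comm h c' l' _ g).symm) i j
  exact (H406.comm_all (F l) (F l' g) key f).symm

/-- everything commutes in a quantum plane -/
theorem allStmt : SD.AllStmt ℝ := by
  intro K _ _ _ E F h
  exact ⟨fun a b f g => all_comm h a b f g, fun a l f g => lines_comm h a l f g,
    fun l l' f g => lines_all h l l' f g⟩

end Vale.Agent.P092.H458
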