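import Vale.Agent.P092.SD.Main
import Vale.Agent.P092.SD.Flip
import Vale.Agent.P092.H596.I1
import Vale.Agent.P092.H613.AllS
import Vale.Agent.P092.H68.KeyR
import Vale.Agent.P092.H171.Cls
import Vale.Agent.P092.H34.PicR
import Vale.Agent.P092.H264.EndD

/-!
P092 (helper458), team D, glue check: seven of the nine statements of `SD/Main` and the flip.
-/

set_option linter.all false

open MeasureTheory

namespace Vale.Agent.P092.H458.Chk

theorem legComm : SD.LegComm ℝ volume :=
  SD.legComm_of H596.i1Stmt H613.i2Stmt H68.keyStmt H613.allStmt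

/-- `Final1` from the two statements which are left: one leg of the concrete picture and the
cross-leg step. -/
theorem final1_of_two (hH : SD.HalfStmt) (hX : SD.XCStmt ℝ) : SD.St.Final1 :=
  SD.final1 H596.i1Stmt H613.i2Stmt H68.keyStmt H613.allStmt (H171.clsD volume) hX
    H34.PicC.picStmtR (SD.exStmt_of_half hH) H264.Cl.endStmt

end Vale.Agent.P092.H458.Chk
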