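import Vale.Agent.P092.H725.SizeF

/-!
P092 (helper458), team D: `SIZE8` (the sizes at the times `2 ^ j` are at most `c * 8 ^ j`) for the
concrete picture, and its dual form. This is the growth input of `SD.CNT`.
-/

set_option linter.all false

open scoped InnerProductSpace ENNReal
open Set Filter Topology MeasureTheory ContinuousLinearMap

namespace Vale.Agent.P092.H458.Size

open Vale.Agent.P092.H160 Vale.Agent.P092.H933 Vale.Agent.P092.H368 Vale.Agent.P092.H103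
open Vale.Agent.P092.SD
open Vale.Agent.P092.RC (Cm)
open Vale.Agent.P092.H725

variable [LocallyCompactSpace (G3 ℝ)] [SecondCountableTopology (G3 ℝ)] [T2Space (G3 ℝ)]
  [MeasurableSpace (G3 ℝ)] [BorelSpace (G3 ℝ)] {Λ : Subgroup (G3 ℝ)} [DiscreteTopology Λ]
  [MeasurableSpace (G3 ℝ ⧸ Λ)] [BorelSpace (G3 ℝ ⧸ Λ)]
  {ν : Measure (G3 ℝ ⧸ Λ)} [IsProbabilityMeasure ν]
  (hν : ∀ g : G3 ℝ, ν.map (fun x => g • x) = ν) [Countable Λ]
  {Γ Γ₂ K : Type} [Group Γ] [Group Γ₂] [Countable Γ] [Countable Γ₂] [NormedAddCommGroup K]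
  [InnerProductSpace ℂ K] [CompleteSpace K] {ρ : Γ × Γ₂ →* (K →L[ℂ] K)} {ω : K}
  {V : Λ →* (K →L[ℂ] K)}

/-- `SIZE8` for the concrete picture. -/
theorem size8_lp (h : RegRep ρ ω) (hVa : ∀ v, adjoint (V v) = V v⁻¹) (hc : ∀ v, Cmm ρ (V v))
    (hirr : ∀ A : K →L[ℂ] K, Cmm ρ A → Cmm V A → ∃ c : ℂ, A = c • 1)
    (b : HilbertBasis (Γ × Γ₂) ℂ K) (hb : ∀ p, b p = ρ p ω) (q : Γ →* G3 ℝ)
    {lam : Γ →* (Lp K 2 ν →L[ℂ] Lp K 2 ν)} {W : Set (Lp K 2 ν →L[ℂ] Lp K 2 ν)}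
    (hM : Ms lam W (Lp.const 2 ν ω) (mm ν b Prod.fst)) (w : ℝˣ) :
    SIZE8 w (irep hν hVa) (Lp.const 2 ν ω) (mm ν b Prod.fst) q := by
  have hD : Flt (fun J => (MonoidHom.fst Γ Γ₂) ⁻¹' DJ q J) := (flt_DJ q).comap _
  refine size8_gr hM (grD hν hVa h hc hD) ?_ ?_ ?_
  · intro J v hv
    exact link q b hb J hv
  · intro g η hη
    exact gap_fin hν hVa h hc hirr moore_one ((levi_bw w).conj g).inv η hη
  · intro g ε hε
    exact kap_gl hν h hVa hc hD g hε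

/-- `SIZE8` for the concrete picture, dual form. -/
theorem size8_lp_dual (h : RegRep ρ ω) (hVa : ∀ v, adjoint (V v) = V v⁻¹) (hc : ∀ v, Cmm ρ (V v))
    (hirr : ∀ A : K →L[ℂ] K, Cmm ρ A → Cmm V A → ∃ c : ℂ, A = c • 1)
    (b : HilbertBasis (Γ × Γ₂) ℂ K) (hb : ∀ p, b p = ρ p ω) (q : Γ →* G3 ℝ)
    {lam : Γ →* (Lp K 2 ν →L[ℂ] Lp K 2 ν)} {W : Set (Lp K 2 ν →L[ℂ] Lp K 2 ν)}
    (hM : Ms lam W (Lp.const 2 ν ω) (mm ν b Prod.fst)) (w : ℝˣ) :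
    SIZE8 w ((irep hν hVa).comp (tau ℝ)) (Lp.const 2 ν ω) (mm ν b Prod.fst)
      ((tau ℝ).comp q) := by
  have hD : Flt (fun J => (MonoidHom.fst Γ Γ₂) ⁻¹' DJ q J) := (flt_DJ q).comap _
  refine size8_gr hM (grD_comp (grD hν hVa h hc hD) (tau ℝ)) ?_ ?_ ?_
  · intro J v hv
    refine mm_eq_zero b Prod.fst fun i hi => ?_
    rw [hb]
    exact mem_SzV.1 hv i fun hmem => not_DJ_tau hi hmem
  · intro g
    refine gap_comp (π := irep hν hVa) (M := FinM ν h.adj) (f := tau ℝ) (f' := tau ℝ) tau_tau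
      tau_tau ?_
    intro η hη
    have e : tau ℝ (g * bw w * g⁻¹)⁻¹ = tau ℝ g * bw w * (tau ℝ g)⁻¹ := by
      rw [map_inv, map_mul, map_mul, map_inv, tau_bw]
      group
    rw [e]
    exact gap_fin hν hVa h hc hirr moore_one ((levi_bw w).conj _) η hη
  · exact kap_comp fun g ε hε => kap_gl hν h hVa hc hD g hε

end Vale.Agent.P092.H458.Size
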